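import Mathlib
import Vale.Agent.Helper29.AllKites

namespace Vale.Agent.Results.P058.KiteCharacterization

open Vale.Agent.Helper29

/-- Characterisation of the subtransitive cyclic kites. For every real `t` with `-1 < t < 1`
let `K_t = {(1,0), (-1,0), (t, √(1-t²)), (t, -√(1-t²))}`. Then `K_t` is subtransitive if and
only if `t` is algebraic over `ℚ` and every real root `t'` of its minimal polynomial (every
real conjugate of `t`) satisfies `-1 < t' < 1`; and the same condition is equivalent to `K_t`
being congruent to a subset of a finite set with a soluble transitive group of isometries. -/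
theorem result (t : ℝ) (h1 : -1 < t) (h2 : t < 1) :
    (Subtransitive (kite t) ↔
        (IsAlgebraic ℚ t ∧
          ∀ t' : ℝ, Polynomial.aeval t' (minpoly ℚ t) = 0 → -1 < t' ∧ t' < 1)) ∧
      (SolubleSubtransitive (kite t) ↔
        (IsAlgebraic ℚ t ∧
          ∀ t' : ℝ, Polynomial.aeval t' (minpoly ℚ t) = 0 → -1 < t' ∧ t' < 1)) :=
  kite_characterization t h1 h2

end Vale.Agent.Results.P058.KiteCharacterization
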