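import Mathlib
import Vale.Agent.Helper29.AllKites

namespace Vale.Agent.Results.P058.KiteCharacterizationPlain

open Vale.Agent.Helper29

/-- The characterisation of the subtransitive cyclic kites, stated with Mathlib notions only.

Let `-1 < t < 1` and let `K` be the cyclic kite
`{(1,0), (-1,0), (t, √(1-t²)), (t, -√(1-t²))}` in the Euclidean plane.

(1) `K` is congruent to a subset of a finite transitive set (there are `n`, a finite set
`X` in Euclidean `n`-space such that for all `x, y ∈ X` some isometry `φ` of the space has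
`φ(X) = X` and `φ x = y`, and a map `f` that preserves all distances between points of `K`
and sends `K` into `X`) if and only if `t` is algebraic over `ℚ` and every real root `t'`
of the minimal polynomial of `t` satisfies `-1 < t' < 1`.

(2) The same arithmetic condition holds if and only if `K` is congruent to a subset of a
finite set `X` for which a soluble group `G` of isometries of the ambient space, each
mapping `X` onto itself, acts transitively on `X`. -/
theorem result (t : ℝ) (h1 : -1 < t) (h2 : t < 1)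
    (K : Set (EuclideanSpace ℝ (Fin 2)))
    (hK : K = {!₂[1, 0], !₂[-1, 0], !₂[t, Real.sqrt (1 - t ^ 2)],
      !₂[t, -Real.sqrt (1 - t ^ 2)]}) :
    ((∃ (n : ℕ) (X : Set (EuclideanSpace ℝ (Fin n)))
        (f : EuclideanSpace ℝ (Fin 2) → EuclideanSpace ℝ (Fin n)),
        X.Finite ∧
        (∀ x ∈ X, ∀ y ∈ X, ∃ φ : EuclideanSpace ℝ (Fin n) ≃ᵢ EuclideanSpace ℝ (Fin n),
          φ '' X = X ∧ φ x = y) ∧
        (∀ p ∈ K, ∀ q ∈ K, dist (f p) (f q) = dist p q) ∧ (∀ p ∈ K, f p ∈ X)) ↔
      (IsAlgebraic ℚ t ∧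
        ∀ t' : ℝ, Polynomial.aeval t' (minpoly ℚ t) = 0 → -1 < t' ∧ t' < 1)) ∧
    ((∃ (n : ℕ) (X : Set (EuclideanSpace ℝ (Fin n)))
        (f : EuclideanSpace ℝ (Fin 2) → EuclideanSpace ℝ (Fin n)),
        X.Finite ∧
        (∃ G : Subgroup (EuclideanSpace ℝ (Fin n) ≃ᵢ EuclideanSpace ℝ (Fin n)),
          Group.IsSolvable G ∧ (∀ φ ∈ G, φ '' X = X) ∧
            ∀ x ∈ X, ∀ y ∈ X, ∃ φ ∈ G, φ x = y) ∧
        (∀ p ∈ K, ∀ q ∈ K, dist (f p) (f q) = dist p q) ∧ (∀ p ∈ K, f p ∈ X)) ↔
      (IsAlgebraic ℚ t ∧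
        ∀ t' : ℝ, Polynomial.aeval t' (minpoly ℚ t) = 0 → -1 < t' ∧ t' < 1)) := by
  subst hK
  exact kite_characterization t h1 h2

end Vale.Agent.Results.P058.KiteCharacterizationPlain
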