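import Mathlib
import Vale.Agent.Helper29.KiteConj

namespace Vale.Agent.Results.P058.KiteConjugates

open Vale.Agent.Helper29 Polynomial

/-- If the cyclic kite with parameter `t` is subtransitive, then `t` is algebraic and every
real root of its minimal polynomial over `ℚ` lies in `(-1, 1)`. In particular the kite with
the quadratic irrational parameter `√2 - 1` is not subtransitive. -/
theorem result :
    (∀ t : ℝ, -1 < t → t < 1 → Subtransitive (kite t) →
      IsAlgebraic ℚ t ∧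
        ∀ t' : ℝ, Polynomial.aeval t' (minpoly ℚ t) = 0 → -1 < t' ∧ t' < 1) ∧
    ¬ Subtransitive (kite (Real.sqrt 2 - 1)) := by
  refine ⟨kite_conj, ?_⟩
  intro hS
  have hsq : Real.sqrt 2 ^ 2 = 2 := Real.sq_sqrt (by norm_num)
  have hs1 : 1 < Real.sqrt 2 := by
    rw [show (1 : ℝ) = Real.sqrt 1 by simp]
    exact Real.sqrt_lt_sqrt (by norm_num) (by norm_num)
  have hs2 : Real.sqrt 2 < 2 := by
    nlinarith [Real.sqrt_nonneg 2]
  obtain ⟨halg, hroots⟩ := kite_conj (Real.sqrt 2 - 1) (by linarith) (by linarith) hS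
  have hint : IsIntegral ℚ (Real.sqrt 2 - 1) := halg.isIntegral
  -- the polynomial X^2 + 2X - 1
  let P : ℚ[X] := X ^ 2 + C 2 * X - C 1
  have hPmonic : P.Monic := by
    show (X ^ 2 + C 2 * X - C 1 : ℚ[X]).Monic
    monicity!
  have hPdeg : P.natDegree = 2 := by
    show (X ^ 2 + C 2 * X - C 1 : ℚ[X]).natDegree = 2
    compute_degree!
  have hPt : Polynomial.aeval (Real.sqrt 2 - 1) P = 0 := by
    show Polynomial.aeval (Real.sqrt 2 - 1) (X ^ 2 + C 2 * X - C 1 : ℚ[X]) = 0
    simp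
    nlinarith
  have hdvd : minpoly ℚ (Real.sqrt 2 - 1) ∣ P := minpoly.dvd ℚ _ hPt
  have hirr : Real.sqrt 2 - 1 ∉ (algebraMap ℚ ℝ).range := by
    rintro ⟨q, hq⟩
    have h1 : Irrational (Real.sqrt 2) := irrational_sqrt_two
    apply h1
    refine ⟨q + 1, ?_⟩
    have : (algebraMap ℚ ℝ) q = (q : ℝ) := rfl
    rw [this] at hq
    push_cast
    linarith
  have hdeg2 : 2 ≤ (minpoly ℚ (Real.sqrt 2 - 1)).natDegree :=
    (minpoly.two_le_natDegree_iff hint).mpr hirr
  have hPeq : P = minpoly ℚ (Real.sqrt 2 - 1) :=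
    Polynomial.eq_of_monic_of_dvd_of_natDegree_le (minpoly.monic hint) hPmonic hdvd
      (by rw [hPdeg]; exact hdeg2)
  have hroot : Polynomial.aeval (-Real.sqrt 2 - 1) (minpoly ℚ (Real.sqrt 2 - 1)) = 0 := by
    rw [← hPeq]
    show Polynomial.aeval (-Real.sqrt 2 - 1) (X ^ 2 + C 2 * X - C 1 : ℚ[X]) = 0
    simp
    nlinarith
  have := (hroots _ hroot).1
  linarith

end Vale.Agent.Results.P058.KiteConjugates
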