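import Mathlib
import Vale.Agent.Helper29.TransitiveGeom

namespace Vale.Agent.Results.P058.QuadCriterion

open Vale.Agent.Helper29

/-- If a set `S` of points of a Euclidean space contains four points `A, B, C, D` with
`A ≠ C` such that the point dividing the segment `BD` in the ratio given by `β`
(`0 < β < 1`) lies on the line `AC` and equals `α A + (1 - α) C`, and `α` is
transcendental over the field `ℚ(β)`, then `S` is not subtransitive. -/
theorem result {d : ℕ} (S : Set (EuclideanSpace ℝ (Fin d)))
    (A B C D : EuclideanSpace ℝ (Fin d)) (hA : A ∈ S) (hB : B ∈ S) (hC : C ∈ S) (hD : D ∈ S)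
    (hAC : A ≠ C) (α β : ℝ) (hβ0 : 0 < β) (hβ1 : β < 1)
    (hrel : β • B + (1 - β) • D = α • A + (1 - α) • C)
    (hα : Transcendental (IntermediateField.adjoin ℚ {β}) α) : ¬ Subtransitive S := by
  have hmem : β ∈ IntermediateField.adjoin ℚ ({β} : Set ℝ) :=
    IntermediateField.mem_adjoin_simple_self ℚ β
  have hb : algebraMap (IntermediateField.adjoin ℚ ({β} : Set ℝ)) ℝ ⟨β, hmem⟩ = β := rfl
  exact not_subtransitive_of_quad S (IntermediateField.adjoin ℚ ({β} : Set ℝ)) ⟨β, hmem⟩ α
    (by rw [hb]; exact hβ0) (by rw [hb]; exact hβ1) A B C D hA hB hC hD hAC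
    (by rw [hb]; exact hrel) hα

end Vale.Agent.Results.P058.QuadCriterion
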